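import Mathlib

/-!
# P022E: a representation with a stable line on a subgroup is trivial on the second derived group
-/

set_option linter.all false

open Matrix
open scoped commutatorElement

noncomputable section

namespace Vale.Agent.P022E.Br

theorem tri_ker {G K : Type} [Group G] [Field K] (σ : G →* GL (Fin 2) K) (H : Subgroup G)
    (h : ∀ g ∈ H, (σ g : Matrix (Fin 2) (Fin 2) K) 1 0 = 0) : ⁅⁅H, H⁆, ⁅H, H⁆⁆ ≤ σ.ker := by
  have mul : ∀ g g' i j, (σ (g * g') : Matrix (Fin 2) (Fin 2) K) i j =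
      (σ g : Matrix (Fin 2) (Fin 2) K) i 0 * (σ g' : Matrix (Fin 2) (Fin 2) K) 0 j +
      (σ g : Matrix (Fin 2) (Fin 2) K) i 1 * (σ g' : Matrix (Fin 2) (Fin 2) K) 1 j := by
    intro g g' i j
    rw [map_mul, Units.val_mul, Matrix.mul_apply, Fin.sum_univ_two]
  have ne : ∀ g ∈ H, (σ g : Matrix (Fin 2) (Fin 2) K) 0 0 ≠ 0 ∧
      (σ g : Matrix (Fin 2) (Fin 2) K) 1 1 ≠ 0 := by
    intro g hg
    have := (σ g).det_ne_zero
    rw [Matrix.det_fin_two, h g hg, mul_zero, sub_zero] at this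
    exact mul_ne_zero_iff.1 this
  let U : Subgroup G :=
    { carrier := {g | g ∈ H ∧ (σ g : Matrix (Fin 2) (Fin 2) K) 0 0 = 1 ∧
        (σ g : Matrix (Fin 2) (Fin 2) K) 1 1 = 1}
      one_mem' := ⟨H.one_mem, by simp, by simp⟩
      mul_mem' := fun {a b} ha hb => ⟨H.mul_mem ha.1 hb.1,
        by rw [mul, ha.2.1, hb.2.1, h b hb.1]; simp,
        by rw [mul, ha.2.2, hb.2.2, h a ha.1]; simp⟩
      inv_mem' := fun {a} ha => by
        have e0 := mul a⁻¹ a 0 0
        have e1 := mul a⁻¹ a 1 1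
        rw [inv_mul_cancel, map_one, Units.val_one, one_apply_eq] at e0 e1
        rw [ha.2.1, h a ha.1] at e0
        rw [ha.2.2, h _ (H.inv_mem ha.1)] at e1
        exact ⟨H.inv_mem ha.1, by simpa using e0.symm, by simpa using e1.symm⟩ }
  have h1 : ⁅H, H⁆ ≤ U := by
    rw [Subgroup.commutator_le]
    intro a ha b hb
    have hc : ⁅a, b⁆ ∈ H := by
      rw [commutatorElement_def]
      exact H.mul_mem (H.mul_mem (H.mul_mem ha hb) (H.inv_mem ha)) (H.inv_mem hb)
    have e : ⁅a, b⁆ * (b * a) = a * b := by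
      rw [commutatorElement_def]
      group
    have e0 := mul ⁅a, b⁆ (b * a) 0 0
    have e1 := mul ⁅a, b⁆ (b * a) 1 1
    rw [e, h _ (H.mul_mem hb ha), mul a b, mul b a, h a ha, h b hb] at e0
    rw [e, h _ hc, mul a b, mul b a 1 1, h a ha, h b hb] at e1
    refine ⟨hc, ?_, ?_⟩
    · apply mul_right_cancel₀ (mul_ne_zero (ne b hb).1 (ne a ha).1)
      linear_combination -e0
    · apply mul_right_cancel₀ (mul_ne_zero (ne b hb).2 (ne a ha).2)
      linear_combination -e1
  refine (Subgroup.commutator_mono h1 h1).trans ?_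
  rw [Subgroup.commutator_le]
  intro a ha b hb
  rw [MonoidHom.mem_ker, map_commutatorElement, commutatorElement_eq_one_iff_mul_comm,
    ← map_mul, ← map_mul]
  apply Units.ext
  ext i j
  rw [mul, mul]
  fin_cases i <;> fin_cases j <;>
    simp [ha.2.1, ha.2.2, hb.2.1, hb.2.2, h a ha.1, h b hb.1, add_comm]

theorem line_ker {G K : Type} [Group G] [Field K] (ρ : G →* GL (Fin 2) K) (H : Subgroup G)
    (w : Fin 2 → K) (hw : w ≠ 0)
    (h : ∀ g ∈ H, ∃ a : K, (ρ g : Matrix (Fin 2) (Fin 2) K) *ᵥ w = a • w) :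
    ⁅⁅H, H⁆, ⁅H, H⁆⁆ ≤ ρ.ker := by
  obtain ⟨P, hP⟩ : ∃ P : GL (Fin 2) K, (P : Matrix (Fin 2) (Fin 2) K) *ᵥ ![1, 0] = w := by
    by_cases h0 : w 0 = 0
    · have h1 : w 1 ≠ 0 := fun h1 => hw (by
        funext i
        fin_cases i
        · exact h0
        · exact h1)
      refine ⟨GeneralLinearGroup.mkOfDetNeZero !![w 0, 1; w 1, 0] (by
        simpa [Matrix.det_fin_two] using h1), ?_⟩
      funext i
      fin_cases i <;> simp [GeneralLinearGroup.mkOfDetNeZero, mulVec, dotProduct]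
    · refine ⟨GeneralLinearGroup.mkOfDetNeZero !![w 0, 0; w 1, 1] (by
        simpa [Matrix.det_fin_two] using h0), ?_⟩
      funext i
      fin_cases i <;> simp [GeneralLinearGroup.mkOfDetNeZero, mulVec, dotProduct]
  let σ : G →* GL (Fin 2) K :=
    { toFun := fun g => P⁻¹ * ρ g * P
      map_one' := by rw [map_one]; group
      map_mul' := fun g g' => by rw [map_mul]; group }
  have hσ : ∀ g, σ g = P⁻¹ * ρ g * P := fun g => rfl
  refine (tri_ker σ H fun g hg => ?_).trans fun g hg => ?_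
  · obtain ⟨a, ha⟩ := h g hg
    have e : (σ g : Matrix (Fin 2) (Fin 2) K) *ᵥ ![1, 0] = a • ![1, 0] := by
      rw [hσ, Units.val_mul, Units.val_mul, ← mulVec_mulVec, ← mulVec_mulVec, hP, ha, ← hP,
        mulVec_smul, mulVec_mulVec, ← Units.val_mul, inv_mul_cancel, Units.val_one, one_mulVec]
    have := congrFun e 1
    simpa [mulVec, dotProduct] using this
  · rw [MonoidHom.mem_ker, hσ] at hg
    rw [MonoidHom.mem_ker]
    have e : ρ g = P * (P⁻¹ * ρ g * P) * P⁻¹ := by group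
    rw [e, hg]
    group

theorem solv_of_ker {G Γ : Type} [Group G] [Group Γ] (ρ : G →* Γ) (n : ℕ)
    (h : derivedSeries G n ≤ ρ.ker) : Group.IsSolvable ρ.range := by
  refine ⟨⟨n, ?_⟩⟩
  rw [← map_derivedSeries_eq ρ.rangeRestrict_surjective, Subgroup.map_eq_bot_iff,
    MonoidHom.ker_rangeRestrict]
  exact h

end Vale.Agent.P022E.Br
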