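import Vale.Agent.P022E.St
import Vale.Agent.P022E.Br.Tri
import Vale.Agent.P022D.End.Cg

/-!
# P022E: a representation with a non solvable image is irreducible on the group of the eighth
cyclotomic field
-/

set_option linter.all false

open Matrix
open scoped commutatorElement

noncomputable section

namespace Vale.Agent.P022E.Br

open Vale.Agent.P022 Vale.Agent.P022.H853 Vale.Agent.P022D.Dk

theorem der_le_H8 : derivedSeries GQ 1 ≤ H8 := by
  rw [derivedSeries_one, commutator_def, Subgroup.commutator_le]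
  intro a _ b _ ζ hζ
  have h1 : cyc 8 ⁅a, b⁆ = 1 := by
    rw [map_commutatorElement, commutatorElement_eq_one_iff_mul_comm, mul_comm]
  have h2 := cyc_spec (m := 8) ⁅a, b⁆ hζ
  rw [h1] at h2
  rw [h2, Units.val_one, show (1 : ZMod 8).val = 1 from rfl, pow_one]

theorem irrCyc_of {k : Type} [Field k] (ρ : GQ →* GL (Fin 2) k)
    (hn : ¬ Group.IsSolvable ρ.range) : St.IrrCyc ρ := by
  intro w hw
  by_contra hc
  push Not at hc
  refine hn (solv_of_ker ρ 3 fun g hg => ?_)
  have h1 := line_ker (bc (AlgebraicClosure k) ρ) H8 w hw fun g hg => hc g hg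
  have h2 : derivedSeries GQ 3 ≤ ⁅⁅H8, H8⁆, ⁅H8, H8⁆⁆ :=
    Subgroup.commutator_mono (Subgroup.commutator_mono der_le_H8 der_le_H8)
      (Subgroup.commutator_mono der_le_H8 der_le_H8)
  exact H20.bc_eq_one.1 (h1 (h2 hg))

theorem absIrr_of {k : Type} [Field k] (ρ : GQ →* GL (Fin 2) k) (h : St.IrrCyc ρ) :
    St.AbsIrr ρ := fun w hw => by
  obtain ⟨g, -, hg⟩ := h w hw
  exact ⟨g, hg⟩

end Vale.Agent.P022E.Br
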