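import Mathlib

/-!
# P022E: separation by traces
-/

set_option linter.all false

open Matrix

noncomputable section

namespace Vale.Agent.P022E.Br

/-- an element with the traces of the identity is trivial -/
theorem sep {G k : Type} [Group G] [Field k] [CharP k 2] (ρ : G →* GL (Fin 2) k)
    (hi : ∀ w : Fin 2 → AlgebraicClosure k, w ≠ 0 → ∃ g, ∀ a : AlgebraicClosure k,
      ((ρ g : Matrix (Fin 2) (Fin 2) k).map (algebraMap k (AlgebraicClosure k))) *ᵥ w ≠ a • w)
    (g : G) (hd : (ρ g : Matrix (Fin 2) (Fin 2) k).det = 1)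
    (h : ∀ x, (ρ (x * g) : Matrix (Fin 2) (Fin 2) k).trace =
      (ρ x : Matrix (Fin 2) (Fin 2) k).trace) : ρ g = 1 := by
  have h2 : (2 : k) = 0 := CharTwo.two_eq_zero
  have inj := (algebraMap k (AlgebraicClosure k)).injective
  set A : Matrix (Fin 2) (Fin 2) k := (ρ g : Matrix (Fin 2) (Fin 2) k) with hA
  have h1 : A 0 0 + A 1 1 = 0 := by
    have := h 1
    rw [one_mul, map_one, Units.val_one, Matrix.trace_fin_two, Matrix.trace_fin_two] at this
    rw [hA, this]
    simp only [one_apply_eq]
    linear_combination h2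
  rw [Matrix.det_fin_two] at hd
  have key : ∀ x, let B : Matrix (Fin 2) (Fin 2) k := (ρ x : Matrix (Fin 2) (Fin 2) k)
      B 0 0 * (A 0 0 - 1) + B 0 1 * A 1 0 + B 1 0 * A 0 1 + B 1 1 * (A 1 1 - 1) = 0 := by
    intro x B
    have := h x
    rw [map_mul, Units.val_mul, Matrix.trace_fin_two, Matrix.trace_fin_two, Matrix.mul_apply,
      Matrix.mul_apply, Fin.sum_univ_two, Fin.sum_univ_two] at this
    linear_combination this
  have eig : ∀ u v : k, (u ≠ 0 ∨ v ≠ 0) → (∀ x, let B : Matrix (Fin 2) (Fin 2) k :=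
      (ρ x : Matrix (Fin 2) (Fin 2) k)
      (B 0 0 * u + B 0 1 * v) * v = (B 1 0 * u + B 1 1 * v) * u) → False := by
    intro u v huv hx
    obtain ⟨x, hx'⟩ := hi ![algebraMap k _ u, algebraMap k _ v] (by
      intro e
      have e0 := congrFun e 0
      have e1 := congrFun e 1
      simp only [cons_val_zero, cons_val_one, Pi.zero_apply, map_eq_zero] at e0 e1
      rcases huv with h | h
      · exact h e0
      · exact h e1)
    have hb := hx x
    simp only at hb
    set B : Matrix (Fin 2) (Fin 2) k := (ρ x : Matrix (Fin 2) (Fin 2) k)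
    obtain ⟨a, ha0, ha1⟩ : ∃ a : k, B 0 0 * u + B 0 1 * v = a * u ∧
        B 1 0 * u + B 1 1 * v = a * v := by
      rcases huv with h | h
      · refine ⟨(B 0 0 * u + B 0 1 * v) / u, by field_simp, ?_⟩
        field_simp
        linear_combination -hb
      · refine ⟨(B 1 0 * u + B 1 1 * v) / v, ?_, by field_simp⟩
        field_simp
        linear_combination hb
    refine hx' (algebraMap k _ a) ?_
    funext i
    fin_cases i
    · simp only [mulVec, dotProduct, Fin.sum_univ_two, map_apply, cons_val_zero, cons_val_one,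
        Fin.zero_eta, Pi.smul_apply, smul_eq_mul]
      rw [← map_mul, ← map_mul, ← map_mul, ← map_add, ha0]
    · simp only [mulVec, dotProduct, Fin.sum_univ_two, map_apply, cons_val_zero, cons_val_one,
        Fin.mk_one, Pi.smul_apply, smul_eq_mul]
      rw [← map_mul, ← map_mul, ← map_mul, ← map_add, ha1]
  have e11 : A 1 1 = A 0 0 := by linear_combination h1 - A 0 0 * h2
  have hdet : (A 0 0 - 1) ^ 2 = A 0 1 * A 1 0 := by
    rw [e11] at hd
    linear_combination hd + (1 - A 0 0) * h2
  by_cases c1 : A 0 0 - 1 ≠ 0 ∨ A 1 0 ≠ 0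
  · exfalso
    refine eig (A 0 0 - 1) (A 1 0) c1 fun x => ?_
    have := key x
    simp only at this ⊢
    rw [e11] at this
    set B : Matrix (Fin 2) (Fin 2) k := (ρ x : Matrix (Fin 2) (Fin 2) k)
    linear_combination A 1 0 * this - B 1 0 * hdet -
      (B 1 0 * A 0 1 * A 1 0 + B 1 1 * (A 0 0 - 1) * A 1 0) * h2
  · rw [not_or, not_not, not_not] at c1
    by_cases c2 : A 0 1 = 0
    · apply Units.ext
      rw [Units.val_one, ← hA]
      ext i j
      fin_cases i <;> fin_cases j
      · simpa [sub_eq_zero] using c1.1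
      · simpa using c2
      · simpa using c1.2
      · simpa [e11, sub_eq_zero] using c1.1
    · exfalso
      refine eig (A 0 1) 0 (Or.inl c2) fun x => ?_
      have := key x
      simp only at this ⊢
      rw [e11, c1.1, c1.2] at this
      linear_combination -(A 0 1) * this

end Vale.Agent.P022E.Br
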