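import Vale.Agent.P022E.Br.Irr
import Vale.Agent.P022E.Br.Sep

/-!
# P022E: the residual level from the hypothesis of the statement
-/

set_option linter.all false

open Matrix NumberField

noncomputable section

namespace Vale.Agent.P022E.Br

open Vale.Agent.P022 Vale.Agent.P022.H567.Tw Vale.Agent.P022.H790.CT Vale.Agent.P022D
  Vale.Agent.P022D.Dk Vale.Agent.P022D.Top Vale.Agent.P022D.End

/-- the relations between the Hecke operators hold for the system of a modular representation -/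
theorem rel_of {k : Type} [Field k] {N : ℕ} [NeZero N] {ρ : GQ →* GL (Fin 2) k}
    (h : St.ModAt N ρ) : ∃ w : ℕ, ∀ φ : PA N → GQ, (∀ ℓ, IsFrob ℓ.1 (φ ℓ)) → ∀ X : G.Wd N,
      (∀ i < w, G.sg N i X = 0) → FreeAlgebra.lift ℤ (Sum.elim
        (fun ℓ => (ρ (φ ℓ) : Matrix (Fin 2) (Fin 2) k).trace)
        (fun ℓ => (ρ (φ ℓ) : Matrix (Fin 2) (Fin 2) k).det) : Gen N → k) X = 0 := by
  obtain ⟨w, lam, hl⟩ := h
  refine ⟨w, fun φ hφ X hX => ?_⟩
  let T : PA N → St.TA N w := fun ℓ => ⟨St.opT N w ℓ, Subring.subset_closure (Or.inl ⟨ℓ, rfl⟩)⟩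
  let S : PA N → St.TA N w := fun ℓ => ⟨St.opS N w ℓ, Subring.subset_closure (Or.inr ⟨ℓ, rfl⟩)⟩
  have key : ∀ Y : G.Wd N, ∃ t : St.TA N w, (∀ i : Fin w, St.iW N w t.1 i = G.sg N i Y) ∧
      lam t = FreeAlgebra.lift ℤ (Sum.elim
        (fun ℓ => (ρ (φ ℓ) : Matrix (Fin 2) (Fin 2) k).trace)
        (fun ℓ => (ρ (φ ℓ) : Matrix (Fin 2) (Fin 2) k).det) : Gen N → k) Y := by
    intro Y
    induction Y using FreeAlgebra.induction with
    | grade0 n =>
      refine ⟨(n : St.TA N w), fun i => ?_, ?_⟩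
      · rw [AlgHom.commutes, SubringClass.coe_intCast, map_intCast]
        rfl
      · rw [AlgHom.commutes, eq_intCast]
        exact map_intCast lam n
    | grade1 s =>
      rcases s with ℓ | ℓ
      · refine ⟨T ℓ, fun i => ?_, ?_⟩
        · rw [St.iW_opT, G.sg, FreeAlgebra.lift_ι_apply]
          rfl
        · rw [FreeAlgebra.lift_ι_apply]
          exact (hl ℓ (T ℓ) (S ℓ) rfl rfl _ (hφ ℓ)).1
      · refine ⟨S ℓ, fun i => ?_, ?_⟩
        · rw [St.iW_opS, G.sg, FreeAlgebra.lift_ι_apply]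
          rfl
        · rw [FreeAlgebra.lift_ι_apply]
          exact (hl ℓ (T ℓ) (S ℓ) rfl rfl _ (hφ ℓ)).2
    | mul p q hp hq =>
      obtain ⟨t, a, b⟩ := hp
      obtain ⟨u, c, d⟩ := hq
      refine ⟨t * u, fun i => ?_, ?_⟩
      · rw [Subring.coe_mul, map_mul, map_mul, Pi.mul_apply, a, c]
      · rw [map_mul, ← b, ← d]
        exact map_mul lam t u
    | add p q hp hq =>
      obtain ⟨t, a, b⟩ := hp
      obtain ⟨u, c, d⟩ := hq
      refine ⟨t + u, fun i => ?_, ?_⟩
      · rw [Subring.coe_add, map_add, map_add, Pi.add_apply, a, c]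
      · rw [map_add, ← b, ← d]
        exact map_add lam t u
  obtain ⟨t, a, b⟩ := key X
  have e : t = 0 := Subtype.ext (funext fun i => (a i).trans (hX i i.2))
  rw [← b, e]
  exact map_zero lam

theorem lift_map {S A B : Type} [CommRing A] [CommRing B] (f : A →+* B) (a : S → A)
    (X : FreeAlgebra ℤ S) :
    f (FreeAlgebra.lift ℤ a X) = FreeAlgebra.lift ℤ (fun s => f (a s)) X := by
  induction X using FreeAlgebra.induction with
  | grade0 n => simp
  | grade1 s => simp
  | mul p q hp hq => rw [map_mul, map_mul, map_mul, hp, hq]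
  | add p q hp hq => rw [map_add, map_add, map_add, hp, hq]

theorem lift_sq {S E : Type} [NontriviallyNormedField E] [NormedAlgebra ℚ_[2] E]
    [IsUltrametricDist E] (a : S → E) (ha : ∀ s, ‖a s‖ ≤ 1) (X : FreeAlgebra ℤ S) :
    ‖FreeAlgebra.lift ℤ a X ^ 2 - FreeAlgebra.lift ℤ (fun s => a s ^ 2) X‖ < 1 := by
  have h2 := norm_two E
  have ha2 : ∀ s, ‖a s ^ 2‖ ≤ 1 := fun s => by
    rw [norm_pow]
    exact pow_le_one₀ (norm_nonneg _) (ha s)
  have sm : ∀ x : E, ‖x‖ ≤ 1 → ‖2 * x‖ < 1 := fun x hx => by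
    rw [norm_mul]
    exact (mul_le_of_le_one_right (norm_nonneg _) hx).trans_lt h2
  induction X using FreeAlgebra.induction with
  | grade0 n =>
    obtain ⟨m, hm⟩ := Int.even_mul_pred_self n
    have e : (n : E) ^ 2 - n = 2 * (m : E) := by
      have := congrArg (Int.cast : ℤ → E) hm
      push_cast at this
      linear_combination this
    rw [AlgHom.commutes, AlgHom.commutes, eq_intCast, e]
    exact sm _ (IsUltrametricDist.norm_intCast_le_one E m)
  | grade1 s => simp
  | mul p q hp hq =>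
    rw [map_mul, map_mul, show ∀ x y z w : E, (x * y) ^ 2 - z * w =
      (x ^ 2 - z) * y ^ 2 + z * (y ^ 2 - w) from fun _ _ _ _ => by ring]
    refine (IsUltrametricDist.norm_add_le_max _ _).trans_lt (max_lt ?_ ?_)
    · rw [norm_mul, norm_pow]
      exact (mul_le_of_le_one_right (norm_nonneg _)
        (pow_le_one₀ (norm_nonneg _) (norm_lift_le a ha q))).trans_lt hp
    · rw [norm_mul]
      exact (mul_le_of_le_one_left (norm_nonneg _) (norm_lift_le _ ha2 p)).trans_lt hq
  | add p q hp hq =>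
    rw [map_add, map_add, show ∀ x y z w : E, (x + y) ^ 2 - (z + w) =
      ((x ^ 2 - z) + (y ^ 2 - w)) + 2 * (x * y) from fun _ _ _ _ => by ring]
    refine (IsUltrametricDist.norm_add_le_max _ _).trans_lt (max_lt ?_ (sm _ ?_))
    · exact (IsUltrametricDist.norm_add_le_max _ _).trans_lt (max_lt hp hq)
    · rw [norm_mul]
      exact mul_le_one₀ (norm_lift_le a ha p) (norm_nonneg _) (norm_lift_le a ha q)

theorem small_of {E k : Type} [NontriviallyNormedField E] [Field k] (O : Subring E)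
    (hO : ∀ x : E, x ∈ O ↔ ‖x‖ ≤ 1) (π : O →+* k) (t : O) (h : π t = 0) : ‖(t : E)‖ < 1 := by
  refine lt_of_le_of_ne ((hO _).1 t.2) fun h1 => ?_
  have ht0 : (t : E) ≠ 0 := by
    intro h3
    rw [h3, norm_zero] at h1
    exact zero_ne_one h1
  have hm : (t : E)⁻¹ ∈ O := by rw [hO, norm_inv, h1, inv_one]
  have e : t * ⟨(t : E)⁻¹, hm⟩ = 1 := Subtype.ext (mul_inv_cancel₀ ht0)
  have h4 := congrArg π e
  rw [map_mul, h, zero_mul, map_one] at h4
  exact zero_ne_one h4

/-- **the bridge** -/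
theorem lev_of {E : Type} [NontriviallyNormedField E] [NormedAlgebra ℚ_[2] E]
    {r : GQ →* GL (Fin 2) E} {k : Type} [Field k] [CharP k 2] {ρ : GQ →* GL (Fin 2) k}
    (hr : St.IsRes r ρ) (hi : St.AbsIrr ρ) (hS : St.Serre ρ)
    {E' : Type} [NontriviallyNormedField E'] [NormedAlgebra ℚ_[2] E'] [IsUltrametricDist E']
    [NormedAlgebra E E'] (r₁ : GQ →* GL (Fin 2) E') (μ : GQ → E')
    (htr : ∀ g, (r₁ g : Matrix (Fin 2) (Fin 2) E').trace =
      μ g * algebraMap E E' (r g : Matrix (Fin 2) (Fin 2) E).trace)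
    (hdt : ∀ g, (r₁ g : Matrix (Fin 2) (Fin 2) E').det =
      μ g ^ 2 * algebraMap E E' (r g : Matrix (Fin 2) (Fin 2) E).det)
    (hint : ∀ g i j, ‖(r₁ g : Matrix (Fin 2) (Fin 2) E') i j‖ ≤ 1) (hD : DetOne r₁) :
    ∃ (N₀ : ℕ) (_ : NeZero N₀), N₀ ≠ 1 ∧ Lev r₁ N₀ := by
  obtain ⟨O, π, hO, ht⟩ := hr
  obtain ⟨χ, ρ₁, N, iN, hρ, hd1, hodd, hN1, hmod, hram, huni⟩ := hS
  have K : ∀ g, ∃ q : O, π q = (ρ₁ g : Matrix (Fin 2) (Fin 2) k).trace ^ 2 ∧
      ‖(r₁ g : Matrix (Fin 2) (Fin 2) E').trace ^ 2 - algebraMap E E' q‖ < 1 := by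
    intro g
    obtain ⟨t, d, a, b, c, e⟩ := ht g
    rw [hρ, Matrix.trace_smul, smul_eq_mul] at c
    rw [hρ, Matrix.det_smul, hd1, Fintype.card_fin, mul_one] at e
    have hχ := (χ g).ne_zero
    have hdn : ‖(d : E)‖ = 1 := le_antisymm ((hO _).1 d.2) (not_lt.1 fun h =>
      pow_ne_zero 2 hχ (e.symm.trans (H315.Sv.pi_small O hO π d h)))
    have hd0 : (d : E) ≠ 0 := fun h => by
      rw [h, norm_zero] at hdn
      exact zero_ne_one hdn
    have hm : (d : E)⁻¹ ∈ O := by rw [hO, norm_inv, hdn, inv_one]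
    have e1 : d * ⟨(d : E)⁻¹, hm⟩ = 1 := Subtype.ext (mul_inv_cancel₀ hd0)
    have e2 := congrArg π e1
    rw [map_mul, map_one, e] at e2
    refine ⟨t ^ 2 * ⟨(d : E)⁻¹, hm⟩, ?_, ?_⟩
    · rw [map_mul, map_pow, c]
      linear_combination (ρ₁ g : Matrix (Fin 2) (Fin 2) k).trace ^ 2 * e2
    · have h1 := hD g
      rw [hdt, ← b] at h1
      have hd0' : algebraMap E E' d ≠ 0 := (map_ne_zero _).2 hd0
      have e3 : (μ g * algebraMap E E' t) ^ 2 - algebraMap E E' ((t : E) ^ 2 * (d : E)⁻¹) =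
          (μ g ^ 2 * algebraMap E E' d - 1) * algebraMap E E' ((t : E) ^ 2 * (d : E)⁻¹) := by
        rw [map_mul, map_pow, map_inv₀]
        field_simp
      rw [htr, ← a, Subring.coe_mul, SubmonoidClass.coe_pow, e3, norm_mul]
      refine (mul_le_of_le_one_right (norm_nonneg _) ?_).trans_lt h1
      rw [norm_algebraMap', norm_mul, norm_inv, hdn, inv_one, mul_one, norm_pow]
      exact pow_le_one₀ (norm_nonneg _) ((hO _).1 t.2)
  choose q hq1 hq2 using K
  refine ⟨N, iN, hN1.ne', hodd, ?_, fun l hl hd hu => hram l hl hd fun P hP hp g hg => ?_,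
    fun l hl hu h2 => ?_⟩
  · obtain ⟨w, hw⟩ := rel_of hmod
    refine ⟨w, fun φ hφ X hX => ?_⟩
    have h1 := congrArg (frobenius k 2) (hw φ hφ X hX)
    rw [map_zero, lift_map] at h1
    let b : Gen N → O := Sum.elim (fun ℓ => q (φ ℓ)) fun _ => 1
    have h2 : π (FreeAlgebra.lift ℤ b X) = 0 := by
      rw [lift_map, ← h1]
      congr 2
      funext s
      rcases s with ℓ | ℓ
      · exact hq1 _
      · change π 1 = frobenius k 2 (ρ₁ (φ ℓ) : Matrix (Fin 2) (Fin 2) k).det
        rw [hd1, map_one, map_one]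
    have h3 := small_of O hO π _ h2
    rw [← norm_algebraMap' E'] at h3
    have h4 := lift_map ((algebraMap E E').comp O.subtype) b X
    have hs := sys_le hint φ
    have h5 := lift_near (a := fun s => sys r₁ φ s ^ 2)
      (b := fun s => ((algebraMap E E').comp O.subtype) (b s)) (fun s => by
        rw [norm_pow]
        exact pow_le_one₀ (norm_nonneg _) (hs s)) (fun s => by
        change ‖algebraMap E E' (b s : E)‖ ≤ 1
        rw [norm_algebraMap']
        exact (hO _).1 (b s).2) (by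
        rintro (ℓ | ℓ)
        · exact hq2 _
        · change ‖(r₁ (φ ℓ) : Matrix (Fin 2) (Fin 2) E').det ^ 2 -
            ((algebraMap E E').comp O.subtype) 1‖ < 1
          rw [map_one]
          exact near_sq (hD _)) X
    rw [← h4] at h5
    have h6 := near (lift_sq (sys r₁ φ) hs X) (near h5 h3)
    rw [norm_pow] at h6
    exact lt_of_pow_lt_pow_left₀ 2 zero_le_one (by rwa [one_pow])
  · refine sep ρ₁ (fun w hw => ?_) g (hd1 g) fun x => ?_
    · obtain ⟨y, hy⟩ := hi w hw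
      refine ⟨y, fun a ha => hy (algebraMap k _ (χ y : k) * a) ?_⟩
      rw [hρ, mul_smul, ← ha, ← Matrix.smul_mulVec]
      congr 1
      ext i j
      simp
    · have h1 : ‖(r₁ (x * g) : Matrix (Fin 2) (Fin 2) E').trace -
          (r₁ x : Matrix (Fin 2) (Fin 2) E').trace‖ < 1 := by
        have e : (r₁ (x * g) : Matrix (Fin 2) (Fin 2) E').trace -
            (r₁ x : Matrix (Fin 2) (Fin 2) E').trace = ((r₁ x : Matrix (Fin 2) (Fin 2) E') *
              ((r₁ g : Matrix (Fin 2) (Fin 2) E') - 1)).trace := by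
          rw [map_mul, Units.val_mul, mul_sub, mul_one, Matrix.trace_sub]
        have s : ∀ i j j', ‖(r₁ x : Matrix (Fin 2) (Fin 2) E') i j *
            ((r₁ g : Matrix (Fin 2) (Fin 2) E') - 1) j j'‖ < 1 := fun i j j' => by
          rw [norm_mul]
          exact (mul_le_of_le_one_left (norm_nonneg _) (hint x i j)).trans_lt
            (hu g ⟨P, hP, hp, hg⟩ j j')
        rw [e, Matrix.trace_fin_two, Matrix.mul_apply, Matrix.mul_apply, Fin.sum_univ_two,
          Fin.sum_univ_two]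
        refine (IsUltrametricDist.norm_add_le_max _ _).trans_lt (max_lt ?_ ?_) <;>
          exact (IsUltrametricDist.norm_add_le_max _ _).trans_lt (max_lt (s _ _ _) (s _ _ _))
      have h2 := (norm_pow_sub_le (tr_le hint (x * g)) (tr_le hint x) 2).trans_lt h1
      have h3 : ‖((q (x * g) - q x : O) : E)‖ < 1 := by
        rw [← norm_algebraMap' E', AddSubgroupClass.coe_sub, map_sub]
        refine near (y := (r₁ x : Matrix (Fin 2) (Fin 2) E').trace ^ 2 - algebraMap E E' (q x))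
          ?_ (hq2 x)
        rw [sub_sub_sub_cancel_right]
        refine near (y := (r₁ (x * g) : Matrix (Fin 2) (Fin 2) E').trace ^ 2 -
          (r₁ x : Matrix (Fin 2) (Fin 2) E').trace ^ 2) ?_ h2
        rw [sub_sub_sub_cancel_right, norm_sub_rev]
        exact hq2 _
      have h4 := H315.Sv.pi_small O hO π _ h3
      rw [map_sub, hq1, hq1, sub_eq_zero] at h4
      exact frobenius_inj k 2 h4
  · obtain ⟨g, ⟨P, hP, hp, hg⟩, hne⟩ := huni l hl h2
    have h1 := hu P hP hp g hg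
    have h3 : ‖(q g : E)‖ < 1 := by
      rw [← norm_algebraMap' E']
      refine near (y := (r₁ g : Matrix (Fin 2) (Fin 2) E').trace ^ 2) ?_ ?_
      · rw [norm_sub_rev]
        exact hq2 g
      · rw [norm_pow]
        exact pow_lt_one₀ (norm_nonneg _) h1 two_ne_zero
    exact pow_ne_zero 2 hne ((hq1 g).symm.trans (H315.Sv.pi_small O hO π _ h3))

end Vale.Agent.P022E.Br
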